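import Vale.Agent.P262.H912.Bridge

/-!
# (J) from the diagonal form of (J2)
-/

set_option linter.unusedSectionVars false

namespace Vale.Agent.P262.H912

open MeasureTheory ProbabilityTheory Set Filter Topology
open scoped RealInnerProductSpace InnerProduct ContDiff
open Vale.Agent.P262.H847
open Vale.Agent.P262.Ehr (PhiConcave comb gam gam_ac)

section ac

variable {E : Type*} [NormedAddCommGroup E] [InnerProductSpace ℝ E] [FiniteDimensional ℝ E]
  [MeasurableSpace E] [BorelSpace E]
variable {F : Type*} [NormedAddCommGroup F] [InnerProductSpace ℝ F] [FiniteDimensional ℝ F]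
  [MeasurableSpace F] [BorelSpace F]

lemma measurePreserving_syn (e : OrthonormalBasis (Fin (Module.finrank ℝ E)) ℝ E) :
    MeasurePreserving (syn e) (volume : Measure (Fin (Module.finrank ℝ E) → ℝ))
      (volume : Measure E) := by
  have h := (e.measurePreserving_repr_symm).comp
    (PiLp.volume_preserving_toLp (Fin (Module.finrank ℝ E)))
  have e1 : syn e = e.repr.symm ∘ WithLp.toLp 2 := by
    funext z
    rw [Function.comp_apply]
    exact (e.sum_repr_symm (WithLp.toLp 2 z))
  rw [e1]
  exact h

lemma stdGaussian_ac : (stdGaussian E) ≪ (volume : Measure E) := by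
  set e := stdOrthonormalBasis ℝ E
  rw [← map_syn e, ← (measurePreserving_syn e).map_eq]
  exact (gam_ac _).map (measurable_syn e)

lemma volume_ac_gam (n : ℕ) : (volume : Measure (Fin n → ℝ)) ≪ gam n := by
  induction n with
  | zero =>
    rw [gam, volume_pi, Measure.pi_of_empty, Measure.pi_of_empty]
  | succ n ih =>
    have h1 := (measurePreserving_piFinSuccAbove (fun _ : Fin (n + 1) => gaussianReal 0 1) 0)
    have h2 := (measurePreserving_piFinSuccAbove (fun _ : Fin (n + 1) => (volume : Measure ℝ)) 0)
    have e1 := (h1.symm _).map_eq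
    have e2 := (h2.symm _).map_eq
    rw [gam, volume_pi, ← e1, ← e2]
    refine Measure.AbsolutelyContinuous.map ?_ (MeasurableEquiv.measurable _)
    exact (gaussianReal_absolutelyContinuous' 0 one_ne_zero).prod ih

lemma volume_ac_stdGaussian : (volume : Measure E) ≪ stdGaussian E := by
  set e := stdOrthonormalBasis ℝ E
  rw [← map_syn e, ← (measurePreserving_syn e).map_eq]
  exact (volume_ac_gam _).map (measurable_syn e)

instance : (stdGaussian E).IsOpenPosMeasure := volume_ac_stdGaussian.isOpenPosMeasure

lemma blur_ac (A : F →L[ℝ] E) : blur A ≪ (volume : Measure E) := by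
  refine Measure.AbsolutelyContinuous.mk fun s hs h0 => ?_
  rw [blur, Measure.map_apply (by fun_prop) hs, Measure.prod_apply_symm
    ((show Measurable fun p : E × F => p.1 + A p.2 by fun_prop) hs)]
  have h1 : ∀ g : F, (stdGaussian E) ((fun x => (x, g)) ⁻¹' ((fun p : E × F => p.1 + A p.2) ⁻¹' s))
      = 0 := by
    intro g
    apply stdGaussian_ac
    have h2 : (fun x => (x, g)) ⁻¹' ((fun p : E × F => p.1 + A p.2) ⁻¹' s)
        = (fun x => x + A g) ⁻¹' s := rfl
    rw [h2, measure_preimage_add_right]
    exact h0
  simp_rw [h1]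
  simp

end ac

/-- The diagonal form of (J2), for real-valued concave functions. -/
def J2D (k : ℕ) (M c : ℝ) : Prop :=
  ∀ b : Fin k → ℝ, (∀ i, 0 ≤ b i) → ∑ i, b i ≤ M → ∀ n : (Fin k → ℝ) → ℝ, ConcaveOn ℝ univ n →
    1 / 2 ≤ ∫ z, Ehr.Phi (n (fun i => √(1 + b i) * z i)) ∂(gam k) →
    ∫ z, Ehr.Phi (n (fun i => √(1 + b i) * z i)) ∂(gam k)
      ≤ (gam k).real {z | 0 ≤ n z - √(∑ i, b i / (1 + b i) * z i ^ 2) + c}

section

variable {E : Type} [NormedAddCommGroup E] [InnerProductSpace ℝ E] [FiniteDimensional ℝ E]
  [MeasurableSpace E] [BorelSpace E]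
variable {F : Type} [NormedAddCommGroup F] [InnerProductSpace ℝ F] [FiniteDimensional ℝ F]
  [MeasurableSpace F] [BorelSpace F]

theorem J2_of_J2D {A : F →L[ℝ] E} {R : F →L[ℝ] F} (hR : IsRoot A R) {M c : ℝ}
    (hM : hsq A ≤ M) (hJ : J2D (Module.finrank ℝ E) M c) {u : E → ℝ} (hu : UI u)
    (huc : PhiConc u) (h : 1 / 2 < ∫ x, u x ∂(blur A)) :
    ∫ x, u x ∂(blur A) ≤ (stdGaussian E).real {x | Phi (‖R ((A†) x)‖ - c) ≤ u x} := by
  refine Reg.regularise (blur_ac A) stdGaussian_ac (f := fun x => ‖R ((A†) x)‖ - c)
    (by fun_prop) ?_ (phiConcave_of_phiConc hu huc) h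
  intro n hn hn2
  obtain ⟨e, b, hb, hbs, he⟩ := exists_diag A
  have hnc : Continuous n := hn.smooth.continuous
  have h1 : ∫ x, Ehr.Phi (n x) ∂(blur A)
      = ∫ z, Ehr.Phi (n (syn e (fun i => √(1 + b i) * z i))) ∂(gam (Module.finrank ℝ E)) := by
    rw [blur_eq_map hb he, integral_map]
    · exact ((continuous_syn e).comp (by fun_prop)).measurable.aemeasurable
    · exact (Ehr.Phi_continuous.comp hnc).aestronglyMeasurable
  rw [h1] at hn2 ⊢
  have hcv : ConcaveOn ℝ univ (fun z => n (syn e z)) := by
    refine ⟨convex_univ, fun x _ y _ s t hs ht hst => ?_⟩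
    have h2 := (good_concaveOn hn).2 (mem_univ (syn e x)) (mem_univ (syn e y)) hs ht hst
    have h3 : syn e (s • x + t • y) = s • syn e x + t • syn e y := by
      unfold syn
      rw [Finset.smul_sum, Finset.smul_sum, ← Finset.sum_add_distrib]
      refine Finset.sum_congr rfl fun i _ => ?_
      simp only [Pi.add_apply, Pi.smul_apply, smul_eq_mul, add_smul, mul_smul]
    show s • n (syn e x) + t • n (syn e y) ≤ n (syn e (s • x + t • y))
    rw [h3]
    exact h2
  refine (hJ b hb (hbs.le.trans hM) (fun z => n (syn e z)) hcv hn2).trans (le_of_eq ?_)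
  rw [← map_syn e, measureReal_def, measureReal_def, Measure.map_apply (measurable_syn e)]
  · congr 2
    ext z
    have h4 : ‖R ((A†) (syn e z))‖ = √(∑ i, b i / (1 + b i) * z i ^ 2) := by
      rw [← Real.sqrt_sq (norm_nonneg (R ((A†) (syn e z)))), norm_RA_sq hR hb he]
      congr 1
      refine Finset.sum_congr rfl fun i _ => ?_
      rw [inner_syn]
    simp only [mem_ofPred_eq, mem_preimage, h4]
    constructor <;> intro h <;> linarith
  · exact measurableSet_le (by fun_prop) hnc.measurable

/-- (J) with strict inequality in the hypothesis -/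
theorem J_strict (A : F →L[ℝ] E) {M c : ℝ} (hc : 0 ≤ c)
    (hM : hsq A ≤ M) (hJ : J2D (Module.finrank ℝ E) M c) {K : Set (E × F)}
    (hK : MeasurableSet K) (hKc : Convex ℝ K)
    (h : 1 / 2 < ((stdGaussian E).prod (stdGaussian F)).real K) :
    ((stdGaussian E).prod (stdGaussian F)).real K
      ≤ (stdGaussian E).real {x | Phi (-c - √(hsq A)) ≤ (stdGaussian F).real (fib A K x)} := by
  obtain ⟨R, hR⟩ := exists_isRoot A
  exact J_core hR hc hK hKc fun u hu huc he => J2_of_J2D hR hM hJ hu huc (by rw [he]; exact h)

/-! ### the non-strict form -/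

lemma prod_ac : ((stdGaussian E).prod (stdGaussian F)) ≪ (volume : Measure (E × F)) :=
  stdGaussian_ac.prod stdGaussian_ac

lemma frontier_null {K : Set (E × F)} (hK : Convex ℝ K) :
    ((stdGaussian E).prod (stdGaussian F)) (frontier K) = 0 := by
  have : (volume : Measure (E × F)).IsAddHaarMeasure := by
    have : (volume : Measure (E × F)) = (volume : Measure E).prod (volume : Measure F) := rfl
    rw [this]; infer_instance
  exact prod_ac (hK.addHaar_frontier volume)

/-- the shear -/
def shear (A : F →L[ℝ] E) (p : E × F) : E × F := (p.1 + A p.2, p.2)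

lemma continuous_shear (A : F →L[ℝ] E) : Continuous (shear A) := by unfold shear; fun_prop

noncomputable def shearH (A : F →L[ℝ] E) : (E × F) ≃ₜ (E × F) where
  toFun := shear A
  invFun := shear (-A)
  left_inv p := by simp [shear]
  right_inv p := by simp [shear]
  continuous_toFun := continuous_shear A
  continuous_invFun := continuous_shear (-A)

lemma convex_shear (A : F →L[ℝ] E) {K : Set (E × F)} (hK : Convex ℝ K) :
    Convex ℝ (shear A ⁻¹' K) := by
  intro p hp q hq a b ha hb hab
  have e1 : shear A (a • p + b • q) = a • shear A p + b • shear A q := by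
    unfold shear
    ext
    · simp only [Prod.fst_add, Prod.smul_fst, Prod.snd_add, Prod.smul_snd, map_add, map_smul,
        smul_add]
      abel
    · simp
  show shear A (a • p + b • q) ∈ K
  rw [e1]
  exact hK hp hq ha hb hab

lemma fib_eq (A : F →L[ℝ] E) (K : Set (E × F)) (x : E) :
    fib A K x = Prod.mk x ⁻¹' (shear A ⁻¹' K) := rfl

lemma measurable_fib (A : F →L[ℝ] E) {K : Set (E × F)} (hK : MeasurableSet K) :
    Measurable (fun x => (stdGaussian F) (fib A K x)) := by
  have h1 : MeasurableSet (shear A ⁻¹' K) := (continuous_shear A).measurable hK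
  exact measurable_measure_prodMk_left h1

lemma fib_closure_ae (A : F →L[ℝ] E) {K : Set (E × F)} (hKc : Convex ℝ K) :
    ∀ᵐ x ∂(stdGaussian E), (stdGaussian F) (fib A (closure K) x) = (stdGaussian F) (fib A K x) := by
  set K' := shear A ⁻¹' K with hK'
  have h1 : closure K' = shear A ⁻¹' (closure K) := ((shearH A).preimage_closure K).symm
  have h2 := frontier_null (convex_shear A hKc)
  have h3 := Measure.ae_ae_of_ae_prod (measure_eq_zero_iff_ae_notMem.mp h2)
  filter_upwards [h3] with x hx
  have h4 : (stdGaussian F) (Prod.mk x ⁻¹' (frontier K')) = 0 :=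
    measure_eq_zero_iff_ae_notMem.mpr hx
  rw [fib_eq, fib_eq, ← h1]
  refine le_antisymm ?_ (measure_mono (preimage_mono subset_closure))
  have h5 : Prod.mk x ⁻¹' (closure K') ⊆ Prod.mk x ⁻¹' K' ∪ Prod.mk x ⁻¹' (frontier K') := by
    intro g hg
    by_cases h : (x, g) ∈ K'
    · exact Or.inl h
    · exact Or.inr ⟨hg, fun h' => h (interior_subset h')⟩
  refine (measure_mono h5).trans ((measure_union_le _ _).trans ?_)
  rw [h4, add_zero]

/-- a small enlargement of a convex set of measure `< 1` has strictly larger measure -/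
lemma lt_measure_cthickening {K : Set (E × F)} (hKc : Convex ℝ K) (hne : K.Nonempty)
    (h1 : ((stdGaussian E).prod (stdGaussian F)).real K < 1) {ε : ℝ} (hε : 0 < ε) :
    ((stdGaussian E).prod (stdGaussian F)).real K
      < ((stdGaussian E).prod (stdGaussian F)).real (Metric.cthickening ε K) := by
  set μ := (stdGaussian E).prod (stdGaussian F) with hμ
  have hcl : μ.real (closure K) = μ.real K := by
    refine le_antisymm ?_ (measureReal_mono subset_closure)
    have h5 : closure K ⊆ K ∪ frontier K := by
      intro p hp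
      by_cases h : p ∈ K
      · exact Or.inl h
      · exact Or.inr ⟨hp, fun h' => h (interior_subset h')⟩
    refine (measureReal_mono h5).trans ((measureReal_union_le _ _).trans ?_)
    have : μ.real (frontier K) = 0 := by
      rw [measureReal_def, frontier_null hKc]; rfl
    rw [this, add_zero]
  set U : Set (E × F) := Metric.thickening ε K \ closure K with hU
  have hUo : IsOpen U := Metric.isOpen_thickening.sdiff isClosed_closure
  have hUne : U.Nonempty := by
    by_contra hemp
    rw [not_nonempty_iff_eq_empty, hU, sdiff_eq_empty] at hemp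
    have hopen : IsOpen (closure K) := by
      rw [Metric.isOpen_iff]
      intro p hp
      obtain ⟨q, hq, hpq⟩ := Metric.mem_closure_iff.mp hp (ε / 2) (half_pos hε)
      refine ⟨ε / 2, half_pos hε, fun r hr => hemp ?_⟩
      rw [Metric.mem_thickening_iff]
      refine ⟨q, hq, ?_⟩
      have := dist_triangle r p q
      rw [Metric.mem_ball] at hr
      linarith
    have huniv : closure K = univ :=
      IsClopen.eq_univ ⟨isClosed_closure, hopen⟩ hne.closure
    rw [huniv] at hcl
    have : μ.real univ = 1 := probReal_univ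
    rw [this] at hcl
    linarith
  have hUpos : 0 < μ.real U := by
    rw [measureReal_def]
    exact ENNReal.toReal_pos (hUo.measure_pos μ hUne).ne' (measure_ne_top _ _)
  have hsub : closure K ∪ U ⊆ Metric.cthickening ε K := by
    apply union_subset (Metric.closure_subset_cthickening ε K)
    exact sdiff_subset.trans (Metric.thickening_subset_cthickening ε K)
  have hdisj : Disjoint (closure K) U := disjoint_sdiff_right
  have := measureReal_union (μ := μ) hdisj hUo.measurableSet
  have h6 := measureReal_mono (μ := μ) hsub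
  rw [this, hcl] at h6
  linarith

/-- **(J)** from the diagonal form of (J2). -/
theorem J_of_J2D (A : F →L[ℝ] E) {M c : ℝ} (hc : 0 ≤ c)
    (hM : hsq A ≤ M) (hJ : J2D (Module.finrank ℝ E) M c) {K : Set (E × F)}
    (hK : MeasurableSet K) (hKc : Convex ℝ K)
    (h : 1 / 2 ≤ ((stdGaussian E).prod (stdGaussian F)).real K) :
    ((stdGaussian E).prod (stdGaussian F)).real K
      ≤ (stdGaussian E).real {x | Phi (-c - √(hsq A)) ≤ (stdGaussian F).real (fib A K x)} := by
  rcases h.lt_or_eq with h | heq
  · exact J_strict A hc hM hJ hK hKc h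
  set μ := (stdGaussian E).prod (stdGaussian F) with hμ
  set t := Phi (-c - √(hsq A)) with ht
  have hne : K.Nonempty := by
    by_contra hemp
    rw [not_nonempty_iff_eq_empty] at hemp
    rw [hemp] at heq
    simp at heq
  set Kj : ℕ → Set (E × F) := fun j => Metric.cthickening (1 / ((j : ℝ) + 1)) K with hKj
  have hpos : ∀ j : ℕ, (0 : ℝ) < 1 / ((j : ℝ) + 1) := fun j => by positivity
  have hKjm : ∀ j, MeasurableSet (Kj j) := fun j => Metric.isClosed_cthickening.measurableSet
  have hKja : Antitone Kj := by
    intro i j hij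
    apply Metric.cthickening_mono
    apply one_div_le_one_div_of_le (by positivity)
    have : (i : ℝ) ≤ j := by exact_mod_cast hij
    linarith
  have hKjI : ⋂ j, Kj j = closure K := by
    apply subset_antisymm
    · intro p hp
      rw [Metric.closure_eq_iInter_cthickening]
      simp only [mem_iInter]
      intro δ hδ
      obtain ⟨j, hj⟩ := exists_nat_one_div_lt hδ
      exact Metric.cthickening_mono hj.le _ (mem_iInter.mp hp j)
    · exact subset_iInter fun j => Metric.closure_subset_cthickening _ _
  set S : ℕ → Set E := fun j => {x | t ≤ (stdGaussian F).real (fib A (Kj j) x)} with hS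
  have hSm : ∀ j, MeasurableSet (S j) := fun j =>
    measurableSet_le measurable_const (measurable_fib A (hKjm j)).ennreal_toReal
  have hSa : Antitone S := by
    intro i j hij x hx
    refine le_trans hx (measureReal_mono ?_)
    exact preimage_mono (f := fun g : F => (x + A g, g)) (hKja hij)
  have hSj : ∀ j, 1 / 2 ≤ (stdGaussian E).real (S j) := by
    intro j
    have h1 := lt_measure_cthickening hKc hne (by rw [← heq]; norm_num) (hpos j)
    rw [← heq] at h1
    exact h1.le.trans (J_strict A hc hM hJ (hKjm j) (hKc.cthickening _) h1)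
  have hlim : Tendsto (fun j => (stdGaussian E).real (S j)) atTop
      (𝓝 ((stdGaussian E).real (⋂ j, S j))) := by
    have := tendsto_measure_iInter_atTop (μ := stdGaussian E)
      (fun j => (hSm j).nullMeasurableSet) hSa ⟨0, measure_ne_top _ _⟩
    exact (ENNReal.tendsto_toReal (measure_ne_top _ _)).comp this
  have h2 : 1 / 2 ≤ (stdGaussian E).real (⋂ j, S j) := ge_of_tendsto' hlim hSj
  rw [← heq]
  refine h2.trans ?_
  have h3 : (⋂ j, S j) ⊆ {x | t ≤ (stdGaussian F).real (fib A (closure K) x)} := by
    intro x hx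
    rw [mem_iInter] at hx
    have hfl : Tendsto (fun j => (stdGaussian F).real (fib A (Kj j) x)) atTop
        (𝓝 ((stdGaussian F).real (⋂ j, fib A (Kj j) x))) := by
      have := tendsto_measure_iInter_atTop (μ := stdGaussian F) (s := fun j => fib A (Kj j) x)
        (fun j => (measurableSet_fib (hKjm j) x).nullMeasurableSet)
        (fun i j hij => preimage_mono (f := fun g : F => (x + A g, g)) (hKja hij))
        ⟨0, measure_ne_top _ _⟩
      exact (ENNReal.tendsto_toReal (measure_ne_top _ _)).comp this
    have h4 : ⋂ j, fib A (Kj j) x = fib A (closure K) x := by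
      rw [← hKjI]
      ext g
      simp [fib]
    rw [h4] at hfl
    exact ge_of_tendsto' hfl hx
  refine (measureReal_mono h3).trans (le_of_eq ?_)
  apply measureReal_congr
  filter_upwards [fib_closure_ae A hKc] with x hx
  have : (t ≤ (stdGaussian F).real (fib A (closure K) x))
      = (t ≤ (stdGaussian F).real (fib A K x)) := by
    rw [measureReal_def, measureReal_def, hx]
  exact this

end

end Vale.Agent.P262.H912
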