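import Vale.Agent.P262.H847.EhrCor

/-!
# Shift inequality for the standard Gaussian measure (Neyman-Pearson)
-/

set_option linter.unusedSectionVars false

namespace Vale.Agent.P262.H912

open MeasureTheory ProbabilityTheory Set Filter Topology
open scoped RealInnerProductSpace
open Vale.Agent.P262.H847

variable {E : Type*} [NormedAddCommGroup E] [InnerProductSpace ℝ E] [FiniteDimensional ℝ E]
  [MeasurableSpace E] [BorelSpace E]

lemma integral_cexp_stdGaussian (h t : E) :
    ∫ x, Complex.exp (((⟪h, x⟫ : ℝ) : ℂ) + ((⟪t, x⟫ : ℝ) : ℂ) * Complex.I) ∂(stdGaussian E)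
      = Complex.exp (((‖h‖ ^ 2 : ℝ) - (‖t‖ ^ 2 : ℝ)) / 2 + (⟪h, t⟫ : ℝ) * Complex.I) := by
  rw [stdGaussian, integral_map (Measurable.aemeasurable (by fun_prop))
    (Measurable.aestronglyMeasurable (by fun_prop))]
  set b := stdOrthonormalBasis ℝ E
  have e1 : ∀ x : Fin (Module.finrank ℝ E) → ℝ,
      Complex.exp (((⟪h, ∑ i, x i • b i⟫ : ℝ) : ℂ)
        + ((⟪t, ∑ i, x i • b i⟫ : ℝ) : ℂ) * Complex.I)
      = ∏ i, Complex.exp ((((⟪h, b i⟫ : ℝ) : ℂ) + ((⟪t, b i⟫ : ℝ) : ℂ) * Complex.I) * (x i : ℂ)) := by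
    intro x
    rw [← Complex.exp_sum, inner_sum, inner_sum]
    congr 1
    push_cast
    rw [Finset.sum_mul, ← Finset.sum_add_distrib]
    apply Finset.sum_congr rfl
    intro i _
    rw [real_inner_smul_right, real_inner_smul_right]
    push_cast
    ring
  simp_rw [e1]
  rw [integral_fintype_prod_eq_prod (𝕜 := ℂ) (f := fun i (x : ℝ) =>
    Complex.exp ((((⟪h, b i⟫ : ℝ) : ℂ) + ((⟪t, b i⟫ : ℝ) : ℂ) * Complex.I) * (x : ℂ)))]
  have e2 : ∀ z : ℂ, ∫ x : ℝ, Complex.exp (z * (x : ℂ)) ∂(gaussianReal 0 1)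
      = Complex.exp (z ^ 2 / 2) := by
    intro z
    have := complexMGF_id_gaussianReal (μ := 0) (v := 1) z
    simp only [complexMGF, id_eq] at this
    rw [this]
    congr 1
    push_cast
    ring
  simp_rw [e2]
  rw [← Complex.exp_sum]
  congr 1
  have h1 := b.sum_sq_inner_right h
  have h2 := b.sum_sq_inner_right t
  have h3 := b.sum_inner_mul_inner h t
  rw [← h1, ← h2, ← h3]
  push_cast
  rw [← Finset.sum_sub_distrib, Finset.sum_div, Finset.sum_mul, ← Finset.sum_add_distrib]
  apply Finset.sum_congr rfl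
  intro i _
  rw [real_inner_comm (b i) h, real_inner_comm t (b i)]
  have hI : Complex.I ^ 2 = -1 := Complex.I_sq
  linear_combination ((((⟪t, b i⟫ : ℝ) : ℂ)) ^ 2 / 2) * hI

lemma map_inner_stdGaussian (h : E) :
    (stdGaussian E).map (fun x => ⟪h, x⟫) = gaussianReal 0 (‖h‖ ^ 2).toNNReal := by
  have h1 := IsGaussian.map_eq_gaussianReal (μ := stdGaussian E) (innerSL ℝ h)
  have h2 : (fun x => ⟪h, x⟫) = ⇑(innerSL ℝ h) := by
    ext x; simp
  rw [h2, h1, integral_strongDual_stdGaussian, variance_dual_stdGaussian, innerSL_apply_norm]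

lemma integrable_exp_inner (h : E) (c : ℝ) :
    Integrable (fun x => Real.exp (⟪h, x⟫ - c)) (stdGaussian E) := by
  have h1 : Integrable (fun y : ℝ => Real.exp (1 * y)) (gaussianReal 0 (‖h‖ ^ 2).toNNReal) :=
    integrable_exp_mul_gaussianReal 1
  rw [← map_inner_stdGaussian h] at h1
  have h2 := (integrable_map_measure (by fun_prop) (by fun_prop)).mp h1
  have h3 := h2.mul_const (Real.exp (-c))
  refine h3.congr (Eventually.of_forall fun x => ?_)
  simp only [Function.comp, one_mul, ← Real.exp_add, sub_eq_add_neg]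

/-- Cameron-Martin: translation of the standard Gaussian measure. -/
theorem map_add_stdGaussian (h : E) :
    (stdGaussian E).map (fun x => x + h)
      = (stdGaussian E).withDensity (fun x => ENNReal.ofReal (Real.exp (⟪h, x⟫ - ‖h‖ ^ 2 / 2))) := by
  have hfin : IsFiniteMeasure ((stdGaussian E).withDensity
      (fun x => ENNReal.ofReal (Real.exp (⟪h, x⟫ - ‖h‖ ^ 2 / 2)))) :=
    isFiniteMeasure_withDensity_ofReal (integrable_exp_inner h _).2
  have : IsProbabilityMeasure ((stdGaussian E).map (fun x => x + h)) :=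
    Measure.isProbabilityMeasure_map (by fun_prop)
  apply Measure.ext_of_charFun
  ext t
  rw [charFun_apply, charFun_apply, integral_map (by fun_prop) (by fun_prop),
    integral_withDensity_eq_integral_toReal_smul (by fun_prop)
      (Eventually.of_forall fun x => ENNReal.ofReal_lt_top)]
  have e1 : ∀ x : E, Complex.exp (((⟪x + h, t⟫ : ℝ) : ℂ) * Complex.I)
      = Complex.exp ((⟪h, t⟫ : ℝ) * Complex.I)
        * Complex.exp (((⟪(0:E), x⟫ : ℝ) : ℂ) + ((⟪t, x⟫ : ℝ) : ℂ) * Complex.I) := by
    intro x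
    rw [← Complex.exp_add, inner_add_left, inner_zero_left, real_inner_comm t x]
    congr 1
    push_cast
    ring
  have e2 : ∀ x : E, (ENNReal.ofReal (Real.exp (⟪h, x⟫ - ‖h‖ ^ 2 / 2))).toReal
      • Complex.exp (((⟪x, t⟫ : ℝ) : ℂ) * Complex.I)
      = Complex.exp (-((‖h‖ ^ 2 : ℝ) / 2))
        * Complex.exp (((⟪h, x⟫ : ℝ) : ℂ) + ((⟪t, x⟫ : ℝ) : ℂ) * Complex.I) := by
    intro x
    rw [ENNReal.toReal_ofReal (Real.exp_pos _).le, Complex.real_smul, Complex.ofReal_exp,
      ← Complex.exp_add, ← Complex.exp_add, real_inner_comm t x]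
    congr 1
    push_cast
    ring
  simp_rw [e1, e2]
  rw [integral_const_mul, integral_const_mul, integral_cexp_stdGaussian,
    integral_cexp_stdGaussian, ← Complex.exp_add, ← Complex.exp_add]
  congr 1
  rw [norm_zero, inner_zero_left]
  push_cast
  ring

lemma real_add_mem {Q : Set E} (hQ : MeasurableSet Q) (h : E) :
    (stdGaussian E).real {x | x + h ∈ Q}
      = ∫ x in Q, Real.exp (⟪h, x⟫ - ‖h‖ ^ 2 / 2) ∂(stdGaussian E) := by
  have h1 : (stdGaussian E).real {x | x + h ∈ Q}
      = ((stdGaussian E).map (fun x => x + h)).real Q := by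
    rw [measureReal_def, measureReal_def, Measure.map_apply (by fun_prop) hQ]
    rfl
  rw [h1, map_add_stdGaussian, measureReal_def, withDensity_apply _ hQ,
    ← ofReal_integral_eq_lintegral_ofReal (integrable_exp_inner h _).integrableOn
      (Eventually.of_forall fun x => (Real.exp_pos _).le),
    ENNReal.toReal_ofReal (integral_nonneg fun x => (Real.exp_pos _).le)]

lemma real_halfspace {h : E} (hh : 0 < ‖h‖) (s : ℝ) :
    (stdGaussian E).real {x | ⟪h, x⟫ ≤ s * ‖h‖} = Phi s := by
  have h1 : (stdGaussian E).real {x | ⟪h, x⟫ ≤ s * ‖h‖}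
      = ((stdGaussian E).map (fun x => ⟪h, x⟫)).real (Iic (s * ‖h‖)) := by
    rw [measureReal_def, measureReal_def, Measure.map_apply (by fun_prop) measurableSet_Iic]
    rfl
  have h2 : g1.map (fun x => ‖h‖ * x) = gaussianReal 0 (‖h‖ ^ 2).toNNReal := by
    rw [gaussianReal_map_const_mul]
    congr 1
    · simp
    · ext; simp
  rw [h1, map_inner_stdGaussian, ← h2, Phi, measureReal_def, Measure.map_apply (by fun_prop)
    measurableSet_Iic]
  congr 2
  ext x
  simp only [mem_preimage, mem_Iic]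
  rw [mul_comm, mul_le_mul_iff_left₀ hh]

/-- **Shift inequality**: `x ↦ Phi⁻¹ γ(Q - x)` is `1`-Lipschitz, for every measurable set `Q`. -/
theorem shift_le {Q : Set E} (hQ : MeasurableSet Q) (h : E) {s : ℝ}
    (hs : Phi s ≤ (stdGaussian E).real Q) :
    Phi (s - ‖h‖) ≤ (stdGaussian E).real {x | x + h ∈ Q} := by
  rcases (norm_nonneg h).eq_or_lt with h0 | hh
  · have : h = 0 := norm_eq_zero.mp h0.symm
    subst this
    simpa using hs
  set H : Set E := {x | ⟪h, x⟫ ≤ s * ‖h‖} with hH
  have hHm : MeasurableSet H := measurableSet_le (by fun_prop) (by fun_prop)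
  have e1 : (stdGaussian E).real {x | x + h ∈ H} = Phi (s - ‖h‖) := by
    rw [← real_halfspace hh]
    congr 1
    ext x
    simp only [hH, mem_ofPred_eq, inner_add_right, real_inner_self_eq_norm_sq]
    constructor <;> intro h <;> nlinarith
  rw [← e1, real_add_mem hHm, real_add_mem hQ]
  have hHr : (stdGaussian E).real H = Phi s := real_halfspace hh s
  set D : E → ℝ := fun x => Real.exp (⟪h, x⟫ - ‖h‖ ^ 2 / 2) with hD
  set κ : ℝ := Real.exp (s * ‖h‖ - ‖h‖ ^ 2 / 2) with hκ
  have hDi : Integrable D (stdGaussian E) := integrable_exp_inner h _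
  have key : ∀ x, 0 ≤ Q.indicator (fun x => D x - κ) x - H.indicator (fun x => D x - κ) x := by
    intro x
    by_cases hxH : x ∈ H
    · have : D x ≤ κ := Real.exp_le_exp.mpr (by have := show ⟪h, x⟫ ≤ s * ‖h‖ from hxH; linarith)
      rw [indicator_of_mem hxH]
      by_cases hxQ : x ∈ Q
      · rw [indicator_of_mem hxQ]; simp
      · rw [indicator_of_notMem hxQ]; linarith
    · have : κ ≤ D x := Real.exp_le_exp.mpr (by
        have : ¬ ⟪h, x⟫ ≤ s * ‖h‖ := hxH
        linarith [not_le.mp this])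
      rw [indicator_of_notMem hxH]
      by_cases hxQ : x ∈ Q
      · rw [indicator_of_mem hxQ]; linarith
      · rw [indicator_of_notMem hxQ]; simp
  have hi : Integrable (fun x => D x - κ) (stdGaussian E) := hDi.sub (integrable_const κ)
  have h3 : 0 ≤ ∫ x, (Q.indicator (fun x => D x - κ) x - H.indicator (fun x => D x - κ) x)
      ∂(stdGaussian E) := integral_nonneg fun x => key x
  rw [integral_sub (hi.indicator hQ) (hi.indicator hHm), integral_indicator hQ,
    integral_indicator hHm, integral_sub hDi.integrableOn (integrable_const κ).integrableOn,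
    integral_sub hDi.integrableOn (integrable_const κ).integrableOn] at h3
  simp only [integral_const, smul_eq_mul, measureReal_restrict_apply_univ] at h3
  rw [hHr] at h3
  have hκ0 : 0 < κ := Real.exp_pos _
  nlinarith [mul_nonneg hκ0.le (sub_nonneg.mpr hs)]

end Vale.Agent.P262.H912
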