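import Vale.Agent.P262.H912.JA
import Vale.Agent.P262.H847.Reg

/-!
# From the diagonal form of (J2) for real-valued concave functions to (J2) for every operator
-/

set_option linter.unusedSectionVars false

namespace Vale.Agent.P262.H912

open MeasureTheory ProbabilityTheory Set Filter Topology
open scoped RealInnerProductSpace InnerProduct ContDiff
open Vale.Agent.P262.H847
open Vale.Agent.P262.Ehr (PhiConcave comb gam)

/-! ### `PhiConc` and `PhiConcave` -/

lemma phi_one_of {p : ℝ} (h : ∀ s : ℝ, Phi s ≤ p) : 1 ≤ p :=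
  le_of_tendsto' tendsto_Phi_atTop h

lemma phiConcave_of_phiConc {E : Type*} [AddCommGroup E] [Module ℝ E] [MeasurableSpace E]
    {u : E → ℝ} (hu : UI u) (hc : PhiConc u) : PhiConcave u := by
  refine ⟨hu.nonneg, hu.le_one, ?_⟩
  intro x y t ht0 ht1
  have H : ∀ r s, Phi r ≤ u x → Phi s ≤ u y → Phi ((1 - t) * r + t * s) ≤ u ((1 - t) • x + t • y) :=
    fun r s hr hs => hc (1 - t) t (by linarith) ht0 (by ring) x y r s hr hs
  by_cases h0 : u x ≤ 0 ∨ u y ≤ 0
  · rw [Ehr.comb_zero h0]; exact hu.nonneg _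
  push Not at h0
  obtain ⟨hx0, hy0⟩ := h0
  have small : ∀ p : ℝ, 0 < p → ∃ s, Phi s ≤ p := fun p hp => by
    obtain ⟨s, hs⟩ := (tendsto_Phi_atBot.eventually_lt_const hp).exists
    exact ⟨s, hs.le⟩
  by_cases h1 : 1 ≤ u x ∨ 1 ≤ u y
  · rw [Ehr.comb_one hx0 hy0 h1]
    rcases h1 with h1 | h1
    · obtain ⟨s, hs⟩ := small _ hy0
      apply phi_one_of
      intro r
      have h2 := H ((r - t * s) / (1 - t)) s ((Phi_le_one _).trans h1) hs
      have e : (1 - t) * ((r - t * s) / (1 - t)) + t * s = r := by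
        have : (1 - t) ≠ 0 := by linarith
        field_simp
        ring
      rwa [e] at h2
    · obtain ⟨s, hs⟩ := small _ hx0
      apply phi_one_of
      intro r
      have h2 := H s ((r - (1 - t) * s) / t) hs ((Phi_le_one _).trans h1)
      have e : (1 - t) * s + t * ((r - (1 - t) * s) / t) = r := by
        field_simp
        ring
      rwa [e] at h2
  push Not at h1
  rw [Ehr.comb_mid hx0 h1.1 hy0 h1.2]
  exact H _ _ (le_of_eq (Ehr.Phi_Psi hx0 h1.1)) (le_of_eq (Ehr.Phi_Psi hy0 h1.2))

/-! ### Good functions are concave -/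

lemma good_concaveOn {E : Type} [NormedAddCommGroup E] [InnerProductSpace ℝ E]
    {n : E → ℝ} (hn : Reg.Good n) : ConcaveOn ℝ univ n := by
  obtain ⟨δ, hδ, hconc⟩ := hn.conc
  have hd : Differentiable ℝ n := hn.smooth.differentiable (by simp)
  have hf' : ContDiff ℝ ∞ (fderiv ℝ n) := hn.smooth.fderiv_right (by norm_num)
  have hd' : Differentiable ℝ (fderiv ℝ n) := hf'.differentiable (by simp)
  refine ⟨convex_univ, fun x _ y _ a b ha hb hab => ?_⟩
  set v := y - x with hv
  set φ : ℝ → ℝ := fun t => n (x + t • v) with hφ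
  have hl : ∀ t : ℝ, HasDerivAt (fun t : ℝ => x + t • v) v t := by
    intro t
    simpa using ((hasDerivAt_id t).smul_const v).const_add x
  have h1 : ∀ t : ℝ, HasDerivAt φ (fderiv ℝ n (x + t • v) v) t := fun t =>
    (hd _).hasFDerivAt.comp_hasDerivAt t (hl t)
  have h2 : ∀ t : ℝ, HasDerivAt (fun t : ℝ => fderiv ℝ n (x + t • v) v)
      (fderiv ℝ (fderiv ℝ n) (x + t • v) v v) t := by
    intro t
    have h3 := (hd' (x + t • v)).hasFDerivAt.comp_hasDerivAt t (hl t)
    exact h3.clm_apply (hasDerivAt_const t v) |>.congr_deriv (by simp)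
  have hφc : ConcaveOn ℝ univ φ := by
    apply AntitoneOn.concaveOn_of_deriv convex_univ
    · exact fun t _ => (h1 t).continuousAt.continuousWithinAt
    · exact fun t _ => (h1 t).differentiableAt.differentiableWithinAt
    · rw [interior_univ]
      apply antitoneOn_of_deriv_nonpos convex_univ
      · have e5 : deriv φ = fun t => fderiv ℝ n (x + t • v) v := funext fun t => (h1 t).deriv
        rw [e5]
        exact fun t _ => (h2 t).continuousAt.continuousWithinAt
      · have e5 : deriv φ = fun t => fderiv ℝ n (x + t • v) v := funext fun t => (h1 t).deriv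
        rw [e5]
        exact fun t _ => (h2 t).differentiableAt.differentiableWithinAt
      · intro t _
        have e5 : deriv φ = fun t => fderiv ℝ n (x + t • v) v := funext fun t => (h1 t).deriv
        rw [e5, (h2 t).deriv]
        have := hconc (x + t • v) v
        nlinarith [sq_nonneg ‖v‖]
  have h3 := hφc.2 (mem_univ 0) (mem_univ 1) ha hb hab
  simp only [hφ, smul_eq_mul, mul_zero, mul_one, zero_add, zero_smul, add_zero, one_smul] at h3
  have e1 : x + v = y := by rw [hv]; abel
  have e2 : x + b • v = a • x + b • y := by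
    have : a = 1 - b := by linarith
    rw [hv, this, sub_smul, one_smul, smul_sub]; abel
  rw [e1, e2] at h3
  exact h3

/-! ### Diagonalisation -/

section diag

variable {E : Type*} [NormedAddCommGroup E] [InnerProductSpace ℝ E] [FiniteDimensional ℝ E]
  [MeasurableSpace E] [BorelSpace E]
variable {F : Type*} [NormedAddCommGroup F] [InnerProductSpace ℝ F] [FiniteDimensional ℝ F]
  [MeasurableSpace F] [BorelSpace F]

lemma exists_diag (A : F →L[ℝ] E) :
    ∃ (e : OrthonormalBasis (Fin (Module.finrank ℝ E)) ℝ E) (b : Fin (Module.finrank ℝ E) → ℝ),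
      (∀ i, 0 ≤ b i) ∧ (∑ i, b i = hsq A) ∧ ∀ i, A ((A†) (e i)) = b i • e i := by
  set T : E →L[ℝ] E := A ∘L (A†) with hT
  have hsym : (T : E →ₗ[ℝ] E).IsSymmetric := by
    intro x y
    simp only [ContinuousLinearMap.coe_coe, hT, ContinuousLinearMap.comp_apply]
    rw [← ContinuousLinearMap.adjoint_inner_right, ← ContinuousLinearMap.adjoint_inner_left A]
  set e := hsym.eigenvectorBasis rfl with he
  set b := hsym.eigenvalues rfl with hb
  have hTe : ∀ i, A ((A†) (e i)) = b i • e i := fun i => hsym.apply_eigenvectorBasis rfl i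
  have hb' : ∀ i, b i = ‖(A†) (e i)‖ ^ 2 := by
    intro i
    rw [← real_inner_self_eq_norm_sq, ContinuousLinearMap.adjoint_inner_right, hTe,
      real_inner_smul_left, real_inner_self_eq_norm_sq, e.norm_eq_one]
    ring
  refine ⟨e, b, fun i => by rw [hb']; positivity, ?_, hTe⟩
  simp_rw [hb']
  rw [← hsq_eq_double (stdOrthonormalBasis ℝ F) e A, hsq]

/-- synthesis map of an orthonormal basis -/
noncomputable def syn (e : OrthonormalBasis (Fin (Module.finrank ℝ E)) ℝ E)
    (z : Fin (Module.finrank ℝ E) → ℝ) : E := ∑ i, z i • e i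

lemma continuous_syn (e : OrthonormalBasis (Fin (Module.finrank ℝ E)) ℝ E) :
    Continuous (syn e) := by
  unfold syn; fun_prop

lemma measurable_syn (e : OrthonormalBasis (Fin (Module.finrank ℝ E)) ℝ E) :
    Measurable (syn e) := (continuous_syn e).measurable

lemma map_syn (e : OrthonormalBasis (Fin (Module.finrank ℝ E)) ℝ E) :
    (gam (Module.finrank ℝ E)).map (syn e) = stdGaussian E :=
  (stdGaussian_eq_map_pi_orthonormalBasis e).symm

lemma inner_syn (e : OrthonormalBasis (Fin (Module.finrank ℝ E)) ℝ E)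
    (z : Fin (Module.finrank ℝ E) → ℝ) (i : Fin (Module.finrank ℝ E)) :
    ⟪e i, syn e z⟫ = z i := by
  unfold syn
  rw [inner_sum, Finset.sum_eq_single i]
  · rw [real_inner_smul_right, real_inner_self_eq_norm_sq, e.norm_eq_one]; simp
  · intro j _ hj
    rw [real_inner_smul_right, e.inner_eq_zero hj.symm, mul_zero]
  · intro h; exact absurd (Finset.mem_univ i) h

/-- diagonal operator -/
noncomputable def dia (e : OrthonormalBasis (Fin (Module.finrank ℝ E)) ℝ E)
    (r : Fin (Module.finrank ℝ E) → ℝ) : E →L[ℝ] E :=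
  ∑ i, r i • (innerSL ℝ (e i)).smulRight (e i)

lemma dia_apply (e : OrthonormalBasis (Fin (Module.finrank ℝ E)) ℝ E)
    (r : Fin (Module.finrank ℝ E) → ℝ) (x : E) : dia e r x = ∑ i, (r i * ⟪e i, x⟫) • e i := by
  simp only [dia, _root_.sum_apply, _root_.smul_apply,
    ContinuousLinearMap.smulRight_apply, innerSL_apply_apply, smul_smul]

lemma dia_symm (e : OrthonormalBasis (Fin (Module.finrank ℝ E)) ℝ E)
    (r : Fin (Module.finrank ℝ E) → ℝ) (x y : E) : ⟪dia e r x, y⟫ = ⟪x, dia e r y⟫ := by
  rw [dia_apply, dia_apply, sum_inner, inner_sum]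
  apply Finset.sum_congr rfl
  intro i _
  rw [real_inner_smul_left, real_inner_smul_right, real_inner_comm x (e i)]
  ring

lemma dia_syn (e : OrthonormalBasis (Fin (Module.finrank ℝ E)) ℝ E)
    (r z : Fin (Module.finrank ℝ E) → ℝ) : dia e r (syn e z) = syn e (fun i => r i * z i) := by
  rw [dia_apply]
  unfold syn
  apply Finset.sum_congr rfl
  intro i _
  have := inner_syn e z i
  unfold syn at this
  rw [this]

lemma norm_dia_sq (e : OrthonormalBasis (Fin (Module.finrank ℝ E)) ℝ E)
    (r : Fin (Module.finrank ℝ E) → ℝ) (x : E) :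
    ‖dia e r x‖ ^ 2 = ∑ i, r i ^ 2 * ⟪e i, x⟫ ^ 2 := by
  have h1 : dia e r x = syn e (fun i => r i * ⟪e i, x⟫) := dia_apply e r x
  rw [← e.sum_sq_inner_right, h1]
  apply Finset.sum_congr rfl
  intro i _
  rw [inner_syn]
  ring

lemma expand (e : OrthonormalBasis (Fin (Module.finrank ℝ E)) ℝ E) (x : E) :
    x = ∑ i, ⟪e i, x⟫ • e i := (e.sum_repr' x).symm

/-- `N(0, 1 + A A†)` in the eigenbasis -/
lemma blur_eq_map {A : F →L[ℝ] E} {e : OrthonormalBasis (Fin (Module.finrank ℝ E)) ℝ E}
    {b : Fin (Module.finrank ℝ E) → ℝ} (hb : ∀ i, 0 ≤ b i)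
    (he : ∀ i, A ((A†) (e i)) = b i • e i) :
    blur A = (gam (Module.finrank ℝ E)).map (fun z => syn e (fun i => √(1 + b i) * z i)) := by
  have h1 : (fun z => syn e (fun i => √(1 + b i) * z i))
      = ⇑(dia e (fun i => √(1 + b i))) ∘ syn e := by
    funext z
    rw [Function.comp_apply, dia_syn]
  rw [h1, ← Measure.map_map (by fun_prop) (measurable_syn e), map_syn]
  have : IsProbabilityMeasure ((stdGaussian E).map (dia e (fun i => √(1 + b i)))) :=
    Measure.isProbabilityMeasure_map (by fun_prop)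
  apply Measure.ext_of_charFunDual
  ext L
  obtain ⟨v, rfl⟩ := exists_vec L
  rw [charFunDual_blur, charFunDual_mapR (dia_symm e _)]
  congr 3
  rw [norm_dia_sq]
  have h2 : ‖(A†) v‖ ^ 2 = ∑ i, b i * ⟪e i, v⟫ ^ 2 := by
    have h3 : A ((A†) v) = dia e b v := by
      conv_lhs => rw [expand e v]
      rw [map_sum, map_sum, dia_apply]
      apply Finset.sum_congr rfl
      intro i _
      rw [map_smul, map_smul, he, smul_smul, mul_comm]
    rw [← real_inner_self_eq_norm_sq, ContinuousLinearMap.adjoint_inner_left, h3, dia_apply,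
      inner_sum]
    apply Finset.sum_congr rfl
    intro i _
    rw [real_inner_smul_right, real_inner_comm (e i) v]
    ring
  rw [h2, ← e.sum_sq_inner_right v, ← Finset.sum_add_distrib]
  congr 1
  apply Finset.sum_congr rfl
  intro i _
  rw [Real.sq_sqrt (by linarith [hb i])]
  ring

lemma norm_RA_sq {A : F →L[ℝ] E} {R : F →L[ℝ] F} (hR : IsRoot A R)
    {e : OrthonormalBasis (Fin (Module.finrank ℝ E)) ℝ E}
    {b : Fin (Module.finrank ℝ E) → ℝ} (hb : ∀ i, 0 ≤ b i)
    (he : ∀ i, A ((A†) (e i)) = b i • e i) (x : E) :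
    ‖R ((A†) x)‖ ^ 2 = ∑ i, b i / (1 + b i) * ⟪e i, x⟫ ^ 2 := by
  have hRR : ∀ y : F, R (R (y + (A†) (A y))) = y := by
    intro y
    apply ext_inner_right ℝ
    intro z
    rw [hR.symm, hR.symm]
    have h1 := hR.left z
    conv_rhs => rw [← h1]
    rw [inner_add_left, inner_add_right, ContinuousLinearMap.adjoint_inner_left,
      ContinuousLinearMap.adjoint_inner_right]
  have h1 : ∀ i, A (R (R ((A†) (e i)))) = (b i / (1 + b i)) • e i := by
    intro i
    have h2 := hRR ((A†) (e i))
    rw [he, map_smul] at h2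
    have h3 : (A†) (e i) + b i • (A†) (e i) = (1 + b i) • (A†) (e i) := by
      rw [add_smul, one_smul]
    rw [h3, map_smul, map_smul] at h2
    have h4 : (1 + b i) ≠ 0 := by linarith [hb i]
    have h5 : R (R ((A†) (e i))) = (1 + b i)⁻¹ • (A†) (e i) := by
      rw [eq_inv_smul_iff₀ h4]; exact h2
    rw [h5, map_smul, he, smul_smul, div_eq_inv_mul]
  have h2 : A (R (R ((A†) x))) = ∑ i, (b i / (1 + b i) * ⟪e i, x⟫) • e i := by
    conv_lhs => rw [expand e x]
    rw [map_sum, map_sum, map_sum, map_sum]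
    apply Finset.sum_congr rfl
    intro i _
    rw [map_smul, map_smul, map_smul, map_smul, h1, smul_smul, mul_comm]
  rw [← real_inner_self_eq_norm_sq, hR.symm, ContinuousLinearMap.adjoint_inner_left, h2, inner_sum]
  apply Finset.sum_congr rfl
  intro i _
  rw [real_inner_smul_right, real_inner_comm (e i) x]
  ring

end diag

end Vale.Agent.P262.H912
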