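import Vale.Agent.P262.H912.Law

/-!
# (J) from (J2): Step 1 of the proof of the black box for convex sets
-/

set_option linter.unusedSectionVars false

namespace Vale.Agent.P262.H912

open MeasureTheory ProbabilityTheory Set Filter Topology
open scoped RealInnerProductSpace InnerProduct
open Vale.Agent.P262.H847

variable {E : Type*} [NormedAddCommGroup E] [InnerProductSpace ℝ E] [FiniteDimensional ℝ E]
  [MeasurableSpace E] [BorelSpace E]
variable {F : Type*} [NormedAddCommGroup F] [InnerProductSpace ℝ F] [FiniteDimensional ℝ F]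
  [MeasurableSpace F] [BorelSpace F]

/-! ### Hilbert-Schmidt norm -/

/-- squared Hilbert-Schmidt norm -/
noncomputable def hsq (A : F →L[ℝ] E) : ℝ := ∑ i, ‖A (stdOrthonormalBasis ℝ F i)‖ ^ 2

lemma hsq_nonneg (A : F →L[ℝ] E) : 0 ≤ hsq A := Finset.sum_nonneg fun _ _ => sq_nonneg _

lemma hsq_eq_double {ι κ : Type*} [Fintype ι] [Fintype κ] (b : OrthonormalBasis ι ℝ F)
    (e : OrthonormalBasis κ ℝ E) (A : F →L[ℝ] E) :
    ∑ i, ‖A (b i)‖ ^ 2 = ∑ j, ‖(A†) (e j)‖ ^ 2 := by
  have h1 : ∀ i, ‖A (b i)‖ ^ 2 = ∑ j, ⟪e j, A (b i)⟫ ^ 2 := fun i =>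
    (e.sum_sq_inner_right _).symm
  have h2 : ∀ j, ‖(A†) (e j)‖ ^ 2 = ∑ i, ⟪b i, (A†) (e j)⟫ ^ 2 := fun j =>
    (b.sum_sq_inner_right _).symm
  simp_rw [h1, h2]
  rw [Finset.sum_comm]
  refine Finset.sum_congr rfl fun j _ => Finset.sum_congr rfl fun i _ => ?_
  rw [ContinuousLinearMap.adjoint_inner_right, real_inner_comm]

lemma hsq_eq {ι : Type*} [Fintype ι] (b : OrthonormalBasis ι ℝ F) (A : F →L[ℝ] E) :
    hsq A = ∑ i, ‖A (b i)‖ ^ 2 := by
  rw [hsq, hsq_eq_double _ (stdOrthonormalBasis ℝ E) A, hsq_eq_double b (stdOrthonormalBasis ℝ E) A]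

lemma hsq_adjoint (A : F →L[ℝ] E) : hsq (A†) = hsq A := by
  rw [hsq, hsq, hsq_eq_double _ (stdOrthonormalBasis ℝ F), ContinuousLinearMap.adjoint_adjoint]

lemma integral_inner_sq (h : E) : ∫ x, ⟪h, x⟫ ^ 2 ∂(stdGaussian E) = ‖h‖ ^ 2 := by
  have h1 := variance_dual_stdGaussian (innerSL ℝ h)
  rw [innerSL_apply_norm, variance_eq_integral (by fun_prop), integral_strongDual_stdGaussian] at h1
  simpa using h1

lemma integrable_inner_sq (h : E) : Integrable (fun x => ⟪h, x⟫ ^ 2) (stdGaussian E) := by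
  have h1 : MemLp (innerSL ℝ h) 2 (stdGaussian E) :=
    IsGaussian.memLp_dual (stdGaussian E) (innerSL ℝ h) 2 (by simp)
  have h2 := h1.integrable_sq
  simpa using h2

lemma integrable_norm_sq (A : F →L[ℝ] E) : Integrable (fun x => ‖A x‖ ^ 2) (stdGaussian F) := by
  set e := stdOrthonormalBasis ℝ E
  have h1 : ∀ x, ‖A x‖ ^ 2 = ∑ j, ⟪(A†) (e j), x⟫ ^ 2 := by
    intro x
    rw [← e.sum_sq_inner_right]
    refine Finset.sum_congr rfl fun j _ => ?_
    rw [ContinuousLinearMap.adjoint_inner_left]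
  simp_rw [h1]
  exact integrable_finsetSum _ fun j _ => integrable_inner_sq _

lemma integral_norm_sq (A : F →L[ℝ] E) : ∫ x, ‖A x‖ ^ 2 ∂(stdGaussian F) = hsq A := by
  set e := stdOrthonormalBasis ℝ E
  have h1 : ∀ x, ‖A x‖ ^ 2 = ∑ j, ⟪(A†) (e j), x⟫ ^ 2 := by
    intro x
    rw [← e.sum_sq_inner_right]
    refine Finset.sum_congr rfl fun j _ => ?_
    rw [ContinuousLinearMap.adjoint_inner_left]
  simp_rw [h1]
  rw [integral_finsetSum _ fun j _ => integrable_inner_sq _]
  simp_rw [integral_inner_sq]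
  rw [hsq, hsq_eq_double _ e]

lemma integrable_norm_A (A : F →L[ℝ] E) : Integrable (fun x => ‖A x‖) (stdGaussian F) := by
  have h1 : Integrable (fun x => 1 + ‖A x‖ ^ 2) (stdGaussian F) :=
    (integrable_const _).add (integrable_norm_sq A)
  refine h1.mono (by fun_prop) (Eventually.of_forall fun x => ?_)
  rw [Real.norm_eq_abs, Real.norm_eq_abs, abs_of_nonneg (norm_nonneg _),
    abs_of_nonneg (by positivity)]
  nlinarith [sq_nonneg (‖A x‖ - 1), norm_nonneg (A x)]

lemma integral_norm_le (A : F →L[ℝ] E) : ∫ x, ‖A x‖ ∂(stdGaussian F) ≤ √(hsq A) := by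
  apply Real.le_sqrt_of_sq_le
  have h1 : 0 ≤ ∫ x, (‖A x‖ - ∫ y, ‖A y‖ ∂(stdGaussian F)) ^ 2 ∂(stdGaussian F) :=
    integral_nonneg fun x => sq_nonneg _
  set m := ∫ y, ‖A y‖ ∂(stdGaussian F) with hm
  have e : ∀ x, (‖A x‖ - m) ^ 2 = ‖A x‖ ^ 2 - 2 * m * ‖A x‖ + m ^ 2 := fun x => by ring
  simp_rw [e] at h1
  have hi : Integrable (fun x => ‖A x‖ ^ 2 - 2 * m * ‖A x‖) (stdGaussian F) :=
    (integrable_norm_sq A).sub ((integrable_norm_A A).const_mul _)
  rw [integral_add hi (integrable_const _),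
    integral_sub (integrable_norm_sq A) ((integrable_norm_A A).const_mul _),
    integral_const_mul, integral_norm_sq, ← hm] at h1
  simp only [integral_const, probReal_univ, smul_eq_mul, one_mul] at h1
  nlinarith

/-! ### Jensen for `Phi` on the negative half line -/

lemma convexOn_Phi : ConvexOn ℝ (Iic 0) Phi := by
  apply MonotoneOn.convexOn_of_deriv (convex_Iic 0) continuous_Phi.continuousOn
  · exact fun x _ => (hasDerivAt_Phi x).differentiableAt.differentiableWithinAt
  · intro x hx y hy hxy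
    rw [interior_Iic] at hx hy
    rw [(hasDerivAt_Phi x).deriv, (hasDerivAt_Phi y).deriv]
    rw [← phi_neg x]
    apply phi_anti
    have : y < 0 := hy
    rw [abs_of_neg this]
    linarith

lemma jensen_Phi (A : F →L[ℝ] E) {c : ℝ} (hc : 0 ≤ c) :
    Phi (-c - √(hsq A)) ≤ ∫ x, Phi (-c - ‖A x‖) ∂(stdGaussian F) := by
  have h1 := convexOn_Phi.map_integral_le (μ := stdGaussian F) (f := fun x => -c - ‖A x‖)
    continuous_Phi.continuousOn isClosed_Iic
    (Eventually.of_forall fun x => by
      simp only [mem_Iic]; linarith [norm_nonneg (A x)])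
    ((integrable_const _).sub (integrable_norm_A A))
    (Integrable.of_bound (continuous_Phi.comp (by fun_prop)).aestronglyMeasurable 1
      (Eventually.of_forall fun x => by
        simp only [Function.comp, Real.norm_eq_abs]
        rw [abs_of_nonneg (Phi_nonneg _)]; exact Phi_le_one _))
  refine le_trans (strictMono_Phi.monotone ?_) h1
  rw [integral_sub (integrable_const _) (integrable_norm_A A)]
  simp only [integral_const, probReal_univ, smul_eq_mul, one_mul]
  linarith [integral_norm_le A]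

/-! ### the main reduction -/

/-- (J2) for the operator `A`: here `R = (1 + A†A)^{-1/2}` and `‖R A† x‖ = ‖D^{1/2} x‖`,
`D = A A† (1 + A A†)⁻¹`; `u = Phi ∘ n` with `n` concave, and `blur A = N(0, 1 + A A†)`. -/
def J2 (A : F →L[ℝ] E) (R : F →L[ℝ] F) (c : ℝ) : Prop :=
  ∀ u : E → ℝ, UI u → PhiConc u → 1 / 2 ≤ ∫ x, u x ∂(blur A) →
    ∫ x, u x ∂(blur A) ≤ (stdGaussian E).real {x | Phi (‖R ((A†) x)‖ - c) ≤ u x}

/-- the fibre of `K` over `x` in the direction of `A` -/
def fib (A : F →L[ℝ] E) (K : Set (E × F)) (x : E) : Set F := {g | (x + A g, g) ∈ K}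

lemma measurableSet_fib {A : F →L[ℝ] E} {K : Set (E × F)} (hK : MeasurableSet K) (x : E) :
    MeasurableSet (fib A K x) := by
  have : Measurable (fun g : F => (x + A g, g)) := by fun_prop
  exact this hK

/-- pointwise part: from the conditional law to the standard Gaussian law on the fibre -/
lemma fibre_bound {A : F →L[ℝ] E} {R : F →L[ℝ] F} (hR : IsRoot A R) {Q : Set F}
    (hQ : MeasurableSet Q) {x : E} {c : ℝ} (hc : 0 ≤ c)
    (h : Phi (‖R ((A†) x)‖ - c) ≤ (stdGaussian F).real {g | R g - R (R ((A†) x)) ∈ Q}) :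
    Phi (-c - √(hsq A)) ≤ (stdGaussian F).real Q := by
  have hm : Measurable (fun g : F => R g) := by fun_prop
  -- remove the shift
  have h1 : Phi (-c) ≤ (stdGaussian F).real {g | R g ∈ Q} := by
    have hQ' : MeasurableSet {g | R g - R (R ((A†) x)) ∈ Q} := by
      have : Measurable (fun g : F => R g - R (R ((A†) x))) := by fun_prop
      exact this hQ
    have h2 := shift_le hQ' (R ((A†) x)) h
    have e1 : ‖R ((A†) x)‖ - c - ‖R ((A†) x)‖ = -c := by ring
    rw [e1] at h2
    refine h2.trans (le_of_eq ?_)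
    congr 1
    ext g
    simp [map_add]
  -- add the missing noise
  have h3 : ∀ z : E, Phi (-c - ‖(A†) z‖) ≤ (stdGaussian F).real {g | R (g + (A†) z) ∈ Q} := by
    intro z
    exact shift_le (hm hQ) ((A†) z) h1
  have hQm : MeasurableSet {p : E × F | R (p.2 + (A†) p.1) ∈ Q} := by
    have : Measurable (fun p : E × F => R (p.2 + (A†) p.1)) := by fun_prop
    exact this hQ
  have h4 : (stdGaussian F).real Q
      = ∫ z, (stdGaussian F).real {g | R (g + (A†) z) ∈ Q} ∂(stdGaussian E) := by
    conv_lhs => rw [← map_comb hR]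
    rw [measureReal_def, Measure.map_apply (by fun_prop) hQ]
    have e1 : ((stdGaussian E).prod (stdGaussian F))
        ((fun p : E × F => R (p.2 + (A†) p.1)) ⁻¹' Q)
        = ((stdGaussian E).prod (stdGaussian F)) {p : E × F | R (p.2 + (A†) p.1) ∈ Q} := rfl
    rw [e1, ← measureReal_def, ← integral_ind hQm,
      integral_prod _ ((UI.indicator hQm).integrable _)]
    congr 1
    funext z
    exact integral_section hQm _ z
  rw [h4, ← hsq_adjoint A]
  refine (jensen_Phi (A†) hc).trans (integral_mono ?_ ?_ h3)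
  · exact Integrable.of_bound (continuous_Phi.comp (by fun_prop)).aestronglyMeasurable 1
      (Eventually.of_forall fun x => by
        simp only [Real.norm_eq_abs]
        rw [abs_of_nonneg (Phi_nonneg _)]; exact Phi_le_one _)
  · have := (UI.integral (UI.indicator hQm) (stdGaussian F)).integrable (stdGaussian E)
    refine this.congr (Eventually.of_forall fun z => ?_)
    exact integral_section hQm _ z

/-- core of the reduction: only the function `u` of fibre measures is needed in (J2) -/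
theorem J_core {A : F →L[ℝ] E} {R : F →L[ℝ] F} (hR : IsRoot A R) {c : ℝ} (hc : 0 ≤ c)
    {K : Set (E × F)} (hK : MeasurableSet K) (hKc : Convex ℝ K)
    (hJ2 : ∀ u : E → ℝ, UI u → PhiConc u →
      ∫ x, u x ∂(blur A) = ((stdGaussian E).prod (stdGaussian F)).real K →
      ∫ x, u x ∂(blur A) ≤ (stdGaussian E).real {x | Phi (‖R ((A†) x)‖ - c) ≤ u x}) :
    ((stdGaussian E).prod (stdGaussian F)).real K
      ≤ (stdGaussian E).real {x | Phi (-c - √(hsq A)) ≤ (stdGaussian F).real (fib A K x)} := by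
  set K' : Set (E × F) := {p | dis A R (p.1, R p.2) ∈ K} with hK'
  have hm : Measurable (fun p : E × F => dis A R (p.1, R p.2)) := by fun_prop
  have hK'm : MeasurableSet K' := hm hK
  have hK'c : Convex ℝ K' := by
    intro p hp q hq a b ha hb hab
    have e1 : dis A R ((a • p + b • q).1, R (a • p + b • q).2)
        = a • dis A R (p.1, R p.2) + b • dis A R (q.1, R q.2) := by
      rw [← map_smul, ← map_smul, ← map_add]
      congr 1
      simp [map_add, map_smul]
    show dis A R ((a • p + b • q).1, R (a • p + b • q).2) ∈ K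
    rw [e1]
    exact hKc hp hq ha hb hab
  set u : E → ℝ := fun x => (stdGaussian F).real (Prod.mk x ⁻¹' K') with hu
  have huc : PhiConc u := (Ehr.stdGaussian F).sections hK'm hK'c
  have hu' : u = fun x => ∫ y, K'.indicator (fun _ => (1:ℝ)) (x, y) ∂(stdGaussian F) := by
    funext x
    exact (integral_section hK'm _ x).symm
  have huUI : UI u := by
    rw [hu']
    exact UI.integral (UI.indicator hK'm) _
  have hint : ∫ x, u x ∂(blur A) = ((stdGaussian E).prod (stdGaussian F)).real K := by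
    rw [hu', ← integral_prod _ ((UI.indicator hK'm).integrable _), integral_ind hK'm]
    conv_rhs => rw [← map_dis hR]
    have h1 : ((blur A).prod ((stdGaussian F).map R))
        = ((blur A).prod (stdGaussian F)).map (Prod.map id R) := by
      rw [← Measure.map_prod_map _ _ measurable_id (by fun_prop), Measure.map_id]
    rw [h1, Measure.map_map (by fun_prop) (by fun_prop), measureReal_def, measureReal_def,
      Measure.map_apply (by fun_prop) hK]
    rfl
  have h1 := hJ2 u huUI huc hint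
  rw [hint] at h1
  refine h1.trans (measureReal_mono ?_)
  intro x hx
  have hx' : Phi (‖R ((A†) x)‖ - c) ≤ u x := hx
  refine fibre_bound hR (measurableSet_fib hK x) hc (hx'.trans (le_of_eq ?_))
  rw [hu]
  simp only
  congr 1

/-- **(J) from (J2).** -/
theorem J_of_J2 {A : F →L[ℝ] E} {R : F →L[ℝ] F} (hR : IsRoot A R) {c : ℝ} (hc : 0 ≤ c)
    (hJ2 : J2 A R c) {K : Set (E × F)} (hK : MeasurableSet K) (hKc : Convex ℝ K)
    (h : 1 / 2 ≤ ((stdGaussian E).prod (stdGaussian F)).real K) :
    ((stdGaussian E).prod (stdGaussian F)).real K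
      ≤ (stdGaussian E).real {x | Phi (-c - √(hsq A)) ≤ (stdGaussian F).real (fib A K x)} :=
  J_core hR hc hK hKc fun u hu huc he => hJ2 u hu huc (by rw [he]; exact h)

end Vale.Agent.P262.H912
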