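import Vale.Agent.P262.H912.JMain
import Vale.Agent.P262.H161.LocAll

/-!
# The theorem (J), unconditional

`K` convex in `E × F`, `γ(K) ≥ 1/2`, `A : F → E` with `|A|_HS² ≤ M ≤ 1/10240`:
`γ(K) ≤ γ_E {x | Φ(-(C₀ M^{1/3})) ≤ γ_F {g | (x + A g, g) ∈ K}}`.
-/

namespace Vale.Agent.P262.H912

open MeasureTheory ProbabilityTheory Set Filter Topology
open Vale.Agent.P262.H847

variable {E : Type} [NormedAddCommGroup E] [InnerProductSpace ℝ E] [FiniteDimensional ℝ E]
  [MeasurableSpace E] [BorelSpace E]
variable {F : Type} [NormedAddCommGroup F] [InnerProductSpace ℝ F] [FiniteDimensional ℝ F]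
  [MeasurableSpace F] [BorelSpace F]

theorem locAll : LocAll := H161.loc_all

/-- **(J)** for `M > 0`. -/
theorem J_pos (A : F →L[ℝ] E) {M : ℝ} (hM0 : 0 < M) (hM : hsq A ≤ M)
    (hM1 : M ≤ 1 / 10240) {K : Set (E × F)} (hK : MeasurableSet K) (hKc : Convex ℝ K)
    (h2 : 1 / 2 ≤ ((stdGaussian E).prod (stdGaussian F)).real K) :
    ((stdGaussian E).prod (stdGaussian F)).real K
      ≤ (stdGaussian E).real {x | Phi (-(C₀ * M ^ (1 / 3 : ℝ)))
          ≤ (stdGaussian F).real {g | (x + A g, g) ∈ K}} :=
  J_main_pos locAll A hM0 hM hM1 hK hKc h2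

lemma C₀_pos : 0 < C₀ := by unfold C₀; positivity

/-- **(J)** with `M = |A|_HS²` itself (including `A = 0`). -/
theorem J_hsq (A : F →L[ℝ] E) (hM1 : hsq A ≤ 1 / 10240) {K : Set (E × F)}
    (hK : MeasurableSet K) (hKc : Convex ℝ K)
    (h2 : 1 / 2 ≤ ((stdGaussian E).prod (stdGaussian F)).real K) :
    ((stdGaussian E).prod (stdGaussian F)).real K
      ≤ (stdGaussian E).real {x | Phi (-(C₀ * hsq A ^ (1 / 3 : ℝ)))
          ≤ (stdGaussian F).real {g | (x + A g, g) ∈ K}} := by
  -- let `M ↓ |A|²`
  set S : ℝ → Set E := fun t => {x | Phi (-t) ≤ (stdGaussian F).real {g | (x + A g, g) ∈ K}}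
    with hS
  rcases (hsq_nonneg A).lt_or_eq with h0 | h0
  · exact J_pos A h0 le_rfl hM1 hK hKc h2
  · rw [← h0, Real.zero_rpow (by norm_num), mul_zero, neg_zero]
    -- the sets `S t`, `t = C₀ M^{1/3}`, decrease to `S 0` as `M ↓ 0`
    have hmeas : ∀ t, MeasurableSet (S t) := fun t =>
      measurableSet_le measurable_const (measurable_fib A hK).ennreal_toReal
    have hm : ∀ n : ℕ, ((stdGaussian E).prod (stdGaussian F)).real K
        ≤ (stdGaussian E).real (S (C₀ * (1 / ((n : ℝ) + 10240)) ^ (1 / 3 : ℝ))) := by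
      intro n
      have hn : (0:ℝ) ≤ n := Nat.cast_nonneg n
      refine J_pos A (by positivity) ?_ ?_ hK hKc h2
      · rw [← h0]; positivity
      · exact one_div_le_one_div_of_le (by norm_num) (by linarith)
    set u : ℕ → ℝ := fun n => C₀ * (1 / ((n : ℝ) + 10240)) ^ (1 / 3 : ℝ) with hu
    have huanti : Antitone u := by
      intro a b hab
      have ha : (0:ℝ) ≤ a := Nat.cast_nonneg a
      have hab' : (a:ℝ) ≤ b := Nat.cast_le.2 hab
      refine mul_le_mul_of_nonneg_left ?_ C₀_pos.le
      refine Real.rpow_le_rpow (by positivity) ?_ (by norm_num)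
      exact one_div_le_one_div_of_le (by positivity) (by linarith)
    have hu0 : Tendsto u atTop (𝓝 0) := by
      have h1 : Tendsto (fun n : ℕ => (1 / ((n : ℝ) + 10240))) atTop (𝓝 0) := by
        have := tendsto_natCast_atTop_atTop (R := ℝ)
        have h2 : Tendsto (fun n : ℕ => (n : ℝ) + 10240) atTop atTop :=
          tendsto_atTop_add_const_right _ _ this
        simpa only [one_div, Function.comp_def] using tendsto_inv_atTop_zero.comp h2
      have h3 : Tendsto (fun n : ℕ => (1 / ((n : ℝ) + 10240)) ^ (1 / 3 : ℝ)) atTop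
          (𝓝 ((0:ℝ) ^ (1 / 3 : ℝ))) :=
        h1.rpow_const (Or.inr (by norm_num))
      rw [Real.zero_rpow (by norm_num)] at h3
      have h4 := h3.const_mul C₀
      rw [mul_zero] at h4
      exact h4
    have hanti : Antitone fun n => S (u n) := by
      intro a b hab x hx
      refine le_trans (strictMono_Phi.monotone ?_) hx
      exact neg_le_neg (huanti hab)
    have hinter : ⋂ n, S (u n) = S 0 := by
      ext x
      simp only [hS, Set.mem_iInter, Set.mem_ofPred_eq]
      constructor
      · intro h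
        have hc : Tendsto (fun n => Phi (-(u n))) atTop (𝓝 (Phi (-0))) :=
          (continuous_Phi.tendsto _).comp (hu0.neg)
        exact le_of_tendsto' hc h
      · intro h n
        refine le_trans (strictMono_Phi.monotone ?_) h
        have : 0 ≤ u n := mul_nonneg C₀_pos.le (by positivity)
        linarith
    have hlim : Tendsto (fun n => (stdGaussian E).real (S (u n))) atTop
        (𝓝 ((stdGaussian E).real (⋂ n, S (u n)))) := by
      have := tendsto_measure_iInter_atTop (μ := stdGaussian E) (s := fun n => S (u n))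
        (fun n => (hmeas _).nullMeasurableSet) hanti ⟨0, measure_ne_top _ _⟩
      exact (ENNReal.tendsto_toReal (measure_ne_top _ _)).comp this
    rw [hinter] at hlim
    have := ge_of_tendsto' hlim hm
    simpa [hS] using this

end Vale.Agent.P262.H912
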