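import Vale.Agent.P262.H912.Bridge2
import Vale.Agent.P262.H733.Main
import Vale.Agent.P262.H161.Asm2
import Vale.Agent.P262.H847.SHyp

/-!
# The theorem (J), from the localisation lemma LOC
-/

set_option linter.unusedSectionVars false

namespace Vale.Agent.P262.H912

open MeasureTheory ProbabilityTheory Set Filter Topology
open Vale.Agent.P262.H847
open Vale.Agent.P262.Ehr (PhiConcave comb gam)

/-- the localisation lemma (Step 4) for every good potential, in every dimension -/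
def LocAll : Prop := ∀ (k : ℕ) (w : EuclideanSpace ℝ (Fin k) → ℝ), Reg.Good w → H161.LOC w

theorem shyp (h : LocAll) (k : ℕ) : H733.SHyp k (1 / 10240) := by
  intro w hw h2 al c hc0 hc1 hal
  exact Reg.shyp_of_good (K := 1 / 10240)
    (fun w' hw' h2' al' c' hc0' hc1' hal' =>
      H161.sineq_of_LOC hw' h2' (h k w' hw') al' c' hc0' hc1' hal') w hw h2 al c hc0 hc1 hal

theorem j2d (h : LocAll) (k : ℕ) {M : ℝ} (hM : 0 < M) (hM1 : M ≤ 1 / 10240) :
    J2D k M (6 / 5 * (M / (1 / 10240)) ^ (1 / 3 : ℝ)) := by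
  intro b hb hbM n hn h1
  exact H733.J2diag (shyp h k) hb hbM hM hM1 hn h1

variable {E : Type} [NormedAddCommGroup E] [InnerProductSpace ℝ E] [FiniteDimensional ℝ E]
  [MeasurableSpace E] [BorelSpace E]
variable {F : Type} [NormedAddCommGroup F] [InnerProductSpace ℝ F] [FiniteDimensional ℝ F]
  [MeasurableSpace F] [BorelSpace F]

/-- the constant in the threshold: `Phi (-(C₀ M^{1/3}))`, for `|A|_HS^2 ≤ M ≤ 1/10240` -/
noncomputable def C₀ : ℝ := 6 / 5 * 10240 ^ (1 / 3 : ℝ) + 1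

theorem J_main_pos (h : LocAll) (A : F →L[ℝ] E) {M : ℝ} (hM0 : 0 < M) (hM : hsq A ≤ M)
    (hM1 : M ≤ 1 / 10240) {K : Set (E × F)} (hK : MeasurableSet K) (hKc : Convex ℝ K)
    (h2 : 1 / 2 ≤ ((stdGaussian E).prod (stdGaussian F)).real K) :
    ((stdGaussian E).prod (stdGaussian F)).real K
      ≤ (stdGaussian E).real {x | Phi (-(C₀ * M ^ (1 / 3 : ℝ)))
          ≤ (stdGaussian F).real {g | (x + A g, g) ∈ K}} := by
  have hc : (0:ℝ) ≤ 6 / 5 * (M / (1 / 10240)) ^ (1 / 3 : ℝ) := by positivity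
  refine (J_of_J2D A hc hM (j2d h _ hM0 hM1) hK hKc h2).trans (measureReal_mono ?_)
  intro x hx
  refine le_trans (strictMono_Phi.monotone ?_) hx
  have h1 : (M / (1 / 10240) : ℝ) ^ (1 / 3 : ℝ) = M ^ (1 / 3 : ℝ) * 10240 ^ (1 / 3 : ℝ) := by
    rw [← Real.mul_rpow hM0.le (by norm_num)]
    congr 1
    ring
  have h3 : √(hsq A) ≤ M ^ (1 / 3 : ℝ) := by
    refine (Real.sqrt_le_sqrt hM).trans ?_
    rw [Real.sqrt_eq_rpow]
    exact Real.rpow_le_rpow_of_exponent_ge hM0 (by linarith) (by norm_num)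
  rw [h1, C₀]
  linarith

end Vale.Agent.P262.H912
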