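import Vale.Agent.P262.H912.Shift

/-!
# Laws of linear images of standard Gaussian measures
-/

set_option linter.unusedSectionVars false

namespace Vale.Agent.P262.H912

open MeasureTheory ProbabilityTheory Set Filter Topology
open scoped RealInnerProductSpace InnerProduct
open Vale.Agent.P262.H847

variable {E : Type*} [NormedAddCommGroup E] [InnerProductSpace ℝ E] [FiniteDimensional ℝ E]
  [MeasurableSpace E] [BorelSpace E]
variable {F : Type*} [NormedAddCommGroup F] [InnerProductSpace ℝ F] [FiniteDimensional ℝ F]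
  [MeasurableSpace F] [BorelSpace F]

/-- `R` is a symmetric square root of `(1 + A†A)⁻¹`. -/
structure IsRoot (A : F →L[ℝ] E) (R : F →L[ℝ] F) : Prop where
  symm : ∀ x y, ⟪R x, y⟫ = ⟪x, R y⟫
  left : ∀ x, R (R x) + (A†) (A (R (R x))) = x
  mid : ∀ x, R (R x + (A†) (A (R x))) = x

lemma exists_isRoot (A : F →L[ℝ] E) : ∃ R : F →L[ℝ] F, IsRoot A R := by
  set T : F →L[ℝ] F := ContinuousLinearMap.id ℝ F + (A†) ∘L A with hT
  have hTx : ∀ x, T x = x + (A†) (A x) := fun x => rfl
  have hsym : (T : F →ₗ[ℝ] F).IsSymmetric := by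
    intro x y
    simp only [ContinuousLinearMap.coe_coe, hTx, inner_add_left, inner_add_right,
      ContinuousLinearMap.adjoint_inner_left, ContinuousLinearMap.adjoint_inner_right]
  set b := hsym.eigenvectorBasis rfl with hb
  set l := hsym.eigenvalues rfl with hl
  have hTb : ∀ i, T (b i) = l i • b i := fun i => hsym.apply_eigenvectorBasis rfl i
  have hl1 : ∀ i, 1 ≤ l i := by
    intro i
    have h1 : ⟪T (b i), b i⟫ = l i := by
      rw [hTb, real_inner_smul_left, real_inner_self_eq_norm_sq, b.norm_eq_one]; ring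
    rw [← h1, hTx, inner_add_left, real_inner_self_eq_norm_sq, b.norm_eq_one,
      ContinuousLinearMap.adjoint_inner_left, real_inner_self_eq_norm_sq]
    nlinarith [sq_nonneg ‖A (b i)‖]
  set r : Fin (Module.finrank ℝ F) → ℝ := fun i => (√(l i))⁻¹ with hr
  have hr2 : ∀ i, l i * (r i * r i) = 1 := by
    intro i
    have h0 : 0 < l i := lt_of_lt_of_le one_pos (hl1 i)
    rw [hr]
    simp only
    rw [← mul_inv, Real.mul_self_sqrt h0.le, mul_inv_cancel₀ h0.ne']
  set R : F →L[ℝ] F := ∑ i, r i • (innerSL ℝ (b i)).smulRight (b i) with hR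
  have hRx : ∀ x, R x = ∑ i, (r i * ⟪b i, x⟫) • b i := by
    intro x
    simp only [hR, _root_.sum_apply, _root_.smul_apply,
      ContinuousLinearMap.smulRight_apply, innerSL_apply_apply, smul_smul]
  have hRb : ∀ i, R (b i) = r i • b i := by
    intro i
    rw [hRx, Finset.sum_eq_single i]
    · rw [real_inner_self_eq_norm_sq, b.norm_eq_one]; simp
    · intro j _ hj
      rw [b.inner_eq_zero hj]; simp
    · intro h; exact absurd (Finset.mem_univ i) h
  have hext : ∀ S : F →L[ℝ] F, (∀ i, S (b i) = b i) → ∀ x, S x = x := by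
    intro S hS x
    have : (S : F →ₗ[ℝ] F) = LinearMap.id := by
      apply b.toBasis.ext
      intro i
      simp [hS i]
    exact congrArg (fun f : F →ₗ[ℝ] F => f x) this
  refine ⟨R, ⟨?_, ?_, ?_⟩⟩
  · intro x y
    rw [hRx, hRx, sum_inner, inner_sum]
    apply Finset.sum_congr rfl
    intro i _
    rw [real_inner_smul_left, real_inner_smul_right, real_inner_comm x (b i)]
    ring
  · intro x
    refine hext (T ∘L R ∘L R) ?_ x
    intro i
    simp only [ContinuousLinearMap.comp_apply, hRb, map_smul, hTb, smul_smul]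
    rw [show r i * r i * l i = 1 by rw [← hr2 i]; ring, one_smul]
  · intro x
    refine hext (R ∘L T ∘L R) ?_ x
    intro i
    simp only [ContinuousLinearMap.comp_apply, hRb, map_smul, hTb, smul_smul]
    rw [show r i * l i * r i = 1 by rw [← hr2 i]; ring, one_smul]

lemma charFunDual_innerSL (v : E) :
    charFunDual (stdGaussian E) (innerSL ℝ v) = Complex.exp (-((‖v‖ ^ 2 : ℝ) : ℂ) / 2) := by
  rw [charFunDual_stdGaussian, innerSL_apply_norm]
  push_cast
  rfl

lemma exists_vec (L : StrongDual ℝ E) : ∃ v : E, L = innerSL ℝ v :=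
  ⟨(InnerProductSpace.toDual ℝ E).symm L, by ext x; simp⟩

/-- the law of `A g + x`, `g, x` independent standard Gaussian: `N(0, 1 + A A†)` -/
noncomputable def blur (A : F →L[ℝ] E) : Measure E :=
  ((stdGaussian E).prod (stdGaussian F)).map (fun p => p.1 + A p.2)

instance (A : F →L[ℝ] E) : IsProbabilityMeasure (blur A) :=
  Measure.isProbabilityMeasure_map (by fun_prop)

lemma charFunDual_blur (A : F →L[ℝ] E) (v : E) :
    charFunDual (blur A) (innerSL ℝ v)
      = Complex.exp (-((‖v‖ ^ 2 + ‖(A†) v‖ ^ 2 : ℝ) : ℂ) / 2) := by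
  have h1 : (fun p : E × F => p.1 + A p.2)
      = ⇑(ContinuousLinearMap.fst ℝ E F + A ∘L ContinuousLinearMap.snd ℝ E F) := by
    ext p; simp
  rw [blur, h1, charFunDual_map, charFunDual_prod]
  have e1 : ((innerSL ℝ v) ∘L (ContinuousLinearMap.fst ℝ E F
      + A ∘L ContinuousLinearMap.snd ℝ E F)) ∘L ContinuousLinearMap.inl ℝ E F = innerSL ℝ v := by
    ext x; simp
  have e2 : ((innerSL ℝ v) ∘L (ContinuousLinearMap.fst ℝ E F
      + A ∘L ContinuousLinearMap.snd ℝ E F)) ∘L ContinuousLinearMap.inr ℝ E F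
      = innerSL ℝ ((A†) v) := by
    ext x; simp [ContinuousLinearMap.adjoint_inner_left]
  rw [e1, e2, charFunDual_innerSL, charFunDual_innerSL, ← Complex.exp_add]
  congr 1
  push_cast
  ring

lemma charFunDual_mapR {R : F →L[ℝ] F} (hR : ∀ x y, ⟪R x, y⟫ = ⟪x, R y⟫) (v : F) :
    charFunDual ((stdGaussian F).map R) (innerSL ℝ v)
      = Complex.exp (-((‖R v‖ ^ 2 : ℝ) : ℂ) / 2) := by
  have e1 : (innerSL ℝ v) ∘L R = innerSL ℝ (R v) := by
    ext x; simp [hR]
  rw [charFunDual_map, e1, charFunDual_innerSL]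

/-- the linear map of the disintegration -/
noncomputable def dis (A : F →L[ℝ] E) (R : F →L[ℝ] F) : (E × F) →L[ℝ] (E × F) :=
  (ContinuousLinearMap.fst ℝ E F
    + A ∘L (ContinuousLinearMap.snd ℝ E F - R ∘L R ∘L (A†) ∘L ContinuousLinearMap.fst ℝ E F)).prod
  (ContinuousLinearMap.snd ℝ E F - R ∘L R ∘L (A†) ∘L ContinuousLinearMap.fst ℝ E F)

lemma dis_apply (A : F →L[ℝ] E) (R : F →L[ℝ] F) (p : E × F) :
    dis A R p = (p.1 + A (p.2 - R (R ((A†) p.1))), p.2 - R (R ((A†) p.1))) := rfl

/-- **Disintegration** of `γ_E × γ_F` along `x - A g`. -/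
theorem map_dis {A : F →L[ℝ] E} {R : F →L[ℝ] F} (hR : IsRoot A R) :
    ((blur A).prod ((stdGaussian F).map R)).map (dis A R)
      = (stdGaussian E).prod (stdGaussian F) := by
  have : IsProbabilityMeasure ((stdGaussian F).map R) :=
    Measure.isProbabilityMeasure_map (by fun_prop)
  have : IsProbabilityMeasure (((blur A).prod ((stdGaussian F).map R)).map (dis A R)) :=
    Measure.isProbabilityMeasure_map (by fun_prop)
  apply Measure.ext_of_charFunDual
  ext L
  obtain ⟨ξ, hξ⟩ := exists_vec (L ∘L ContinuousLinearMap.inl ℝ E F)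
  obtain ⟨η, hη⟩ := exists_vec (L ∘L ContinuousLinearMap.inr ℝ E F)
  have hL : ∀ p : E × F, L p = ⟪ξ, p.1⟫ + ⟪η, p.2⟫ := by
    intro p
    have h1 : L (p.1, 0) = ⟪ξ, p.1⟫ := by
      have := congrArg (fun f : StrongDual ℝ E => f p.1) hξ
      simpa using this
    have h2 : L (0, p.2) = ⟪η, p.2⟫ := by
      have := congrArg (fun f : StrongDual ℝ F => f p.2) hη
      simpa using this
    rw [← h1, ← h2, ← map_add]
    simp
  set ζ : F := (A†) ξ + η with hζ
  set p : E := ξ - A (R (R ζ)) with hp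
  rw [charFunDual_map, charFunDual_prod, charFunDual_prod, hξ, hη]
  have e1 : (L ∘L dis A R) ∘L ContinuousLinearMap.inl ℝ E F = innerSL ℝ p := by
    ext x
    simp only [ContinuousLinearMap.comp_apply, ContinuousLinearMap.inl_apply, dis_apply, hL,
      innerSL_apply_apply, zero_sub, map_neg, hp, hζ, map_add, inner_add_right, inner_sub_left,
      inner_neg_right, inner_add_left]
    rw [← ContinuousLinearMap.adjoint_inner_left A, ← hR.symm, ← hR.symm,
      ContinuousLinearMap.adjoint_inner_right, ← hR.symm, ← hR.symm,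
      ContinuousLinearMap.adjoint_inner_right]
    ring
  have e2 : (L ∘L dis A R) ∘L ContinuousLinearMap.inr ℝ E F = innerSL ℝ ζ := by
    ext x
    simp only [ContinuousLinearMap.comp_apply, ContinuousLinearMap.inr_apply, dis_apply, hL,
      innerSL_apply_apply, map_zero, sub_zero, zero_add, hζ, inner_add_left,
      ContinuousLinearMap.adjoint_inner_left]
  rw [e1, e2, charFunDual_blur, charFunDual_mapR hR.symm, charFunDual_innerSL,
    charFunDual_innerSL, ← Complex.exp_add, ← Complex.exp_add]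
  congr 1
  have key : ‖p‖ ^ 2 + ‖(A†) p‖ ^ 2 + ‖R ζ‖ ^ 2 = ‖ξ‖ ^ 2 + ‖η‖ ^ 2 := by
    have hl := hR.left ζ
    set q := R (R ζ) with hq
    have h1 : (A†) p = q - η := by
      have : (A†) (A q) = ζ - q := by rw [← hl]; abel
      rw [hp, map_sub, this, hζ]; abel
    have h2 : ‖R ζ‖ ^ 2 = ⟪ζ, q⟫ := by
      rw [← real_inner_self_eq_norm_sq, hR.symm]
    have h3 : ‖p‖ ^ 2 = ‖ξ‖ ^ 2 - 2 * ⟪(A†) ξ, q⟫ + ‖A q‖ ^ 2 := by
      rw [hp, norm_sub_sq_real, ContinuousLinearMap.adjoint_inner_left]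
    have h4 : ‖q‖ ^ 2 + ‖A q‖ ^ 2 = ⟪ζ, q⟫ := by
      conv_rhs => rw [← hl]
      rw [inner_add_left, ContinuousLinearMap.adjoint_inner_left, real_inner_self_eq_norm_sq,
        real_inner_self_eq_norm_sq]
    have h5 : ⟪ζ, q⟫ = ⟪(A†) ξ, q⟫ + ⟪η, q⟫ := by rw [hζ, inner_add_left]
    rw [h1, h2, h3, norm_sub_sq_real, real_inner_comm η q]
    linarith
  rw [← Complex.ofReal_neg, ← Complex.ofReal_neg]
  have := congrArg (fun t : ℝ => (t : ℂ)) key
  push_cast at this ⊢
  linear_combination (-1/2 : ℂ) * this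

/-- `γ_F` is the law of `R (g + A† x)`. -/
theorem map_comb {A : F →L[ℝ] E} {R : F →L[ℝ] F} (hR : IsRoot A R) :
    ((stdGaussian E).prod (stdGaussian F)).map (fun p => R (p.2 + (A†) p.1)) = stdGaussian F := by
  set S : (E × F) →L[ℝ] F := R ∘L (ContinuousLinearMap.snd ℝ E F
    + (A†) ∘L ContinuousLinearMap.fst ℝ E F) with hS
  have hS' : (fun p : E × F => R (p.2 + (A†) p.1)) = ⇑S := by ext p; rfl
  rw [hS']
  have : IsProbabilityMeasure (((stdGaussian E).prod (stdGaussian F)).map S) :=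
    Measure.isProbabilityMeasure_map (by fun_prop)
  apply Measure.ext_of_charFunDual
  ext L
  obtain ⟨η, rfl⟩ := exists_vec L
  rw [charFunDual_map, charFunDual_prod, charFunDual_innerSL]
  have e1 : ((innerSL ℝ η) ∘L S) ∘L ContinuousLinearMap.inl ℝ E F = innerSL ℝ (A (R η)) := by
    ext x
    simp only [ContinuousLinearMap.comp_apply, ContinuousLinearMap.inl_apply, innerSL_apply_apply,
      hS, _root_.add_apply, ContinuousLinearMap.coe_snd', ContinuousLinearMap.coe_fst', zero_add]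
    rw [← hR.symm, ContinuousLinearMap.adjoint_inner_right]
  have e2 : ((innerSL ℝ η) ∘L S) ∘L ContinuousLinearMap.inr ℝ E F = innerSL ℝ (R η) := by
    ext x
    simp only [ContinuousLinearMap.comp_apply, ContinuousLinearMap.inr_apply, innerSL_apply_apply,
      hS, _root_.add_apply, ContinuousLinearMap.coe_snd', ContinuousLinearMap.coe_fst', map_zero,
      add_zero]
    rw [← hR.symm]
  rw [e1, e2, charFunDual_innerSL, charFunDual_innerSL, ← Complex.exp_add]
  congr 1
  have key : ‖A (R η)‖ ^ 2 + ‖R η‖ ^ 2 = ‖η‖ ^ 2 := by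
    have h1 : ⟪R η + (A†) (A (R η)), R η⟫ = ‖η‖ ^ 2 := by
      rw [← hR.symm, hR.mid, real_inner_self_eq_norm_sq]
    rw [← h1, inner_add_left, ContinuousLinearMap.adjoint_inner_left, real_inner_self_eq_norm_sq,
      real_inner_self_eq_norm_sq]
    ring
  rw [← key]
  push_cast
  ring

end Vale.Agent.P262.H912
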